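import Vale.Agent.P237.Cal.Small.Data1
import Vale.Agent.P237.Cal.Small.Data2
import Vale.Agent.P237.Cal.Small.Data3
import Vale.Agent.P237.Cal.Small.Data4
import Vale.Agent.P237.Cal.Small.Data5
import Vale.Agent.P237.Cal.Small.Data6
import Vale.Agent.P237.Cal.Small.Data7
import Vale.Agent.P237.Cal.Small.Data8
import Vale.Agent.P237.Cal.Small.Data9
import Vale.Agent.P237.Cal.Small.Data10
import Vale.Agent.P237.Cal.Small.Data11

/-!
# P237: calibrations for a small excess, `5 ≤ n ≤ 383`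
-/

open Real Set MeasureTheory

namespace Vale.Agent.P237.Cal.Small

/-- The weight of the window of the small excess. -/
noncomputable def omS (m : ℕ) : ℝ :=
  if m ≤ 3 then 21 / 10 else if m ≤ 4 then 47 / 20 else if m ≤ 5 then 5 / 2 else if m ≤ 11
  then 14 / 5 else if m ≤ 18 then 3 else if m ≤ 27 then 16 / 5 else if m ≤ 77 then 7 / 2
  else if m ≤ 125 then 15 / 4 else if m ≤ 182 then 7 / 2 else if m ≤ 361 then 4 else 9 / 2

/-- The upper end of the window of the small excess, per dimension. -/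
def qS (m : ℕ) : ℚ :=
  if m ≤ 3 then 50009 / 50000 else if m ≤ 4 then 100027 / 100000 else if m ≤ 5 then 10003 /
  10000 else if m ≤ 7 then 100033 / 100000 else if m ≤ 11 then 2501 / 2500 else if m ≤ 27
  then 2001 / 2000 else if m ≤ 125 then 1251 / 1250 else 2001 / 2000

lemma omS_nonneg (m : ℕ) : 0 ≤ omS m := by
  unfold omS; split_ifs <;> norm_num

lemma le_qS (m : ℕ) : (50009 / 50000 : ℚ) ≤ qS m := by
  unfold qS; split_ifs <;> norm_num

/-- **The small excess.** For `5 ≤ n ≤ 383` and `1 < q ≤ qS m` every admissible central value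
has a calibration with the weight `omS`. -/
theorem smallJS {m : ℕ} (h3 : 3 ≤ m) (hm : m ≤ 381) {q Y ρ Q ε : ℝ} (hq : 1 < q)
    (hq₁ : q ≤ (qS m : ℝ)) (hY : 1 ≤ Y) (hH : hullTan m Y ≤ q * semiMom m 1)
    (hQ : Q = q / Y ^ (m + 1)) (hε : ε = omS m * q ^ (2 / ((m : ℝ) + 2)) / Y ^ 2)
    (hρ : omS m * ρ ^ 2 = ε * Y ^ 2) :
    ∃ (lam : ℝ) (Φ : ℝ × ℝ × ℝ → ℝ) (dΦ : ℝ × ℝ × ℝ → (ℝ × ℝ × ℝ →L[ℝ] ℝ)),
      IsCalY m (q * semiMom m 1) ρ (omS m) Y lam Φ dΦ := by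
  have key : ∀ W : Win, windowOk W = true → W.P.m0 ≤ m → m ≤ W.P.m1 →
      ∀ w : ℚ, W.om = w → omS m = (w : ℝ) → qS m = W.P.q1 →
      ∃ (lam : ℝ) (Φ : ℝ × ℝ × ℝ → ℝ) (dΦ : ℝ × ℝ × ℝ → (ℝ × ℝ × ℝ →L[ℝ] ℝ)),
        IsCalY m (q * semiMom m 1) ρ (omS m) Y lam Φ dΦ := fun W hW h0 h1 w e3 e2 e1 => by
    rw [e1] at hq₁
    rw [e2, ← e3] at hε hρ ⊢
    exact window_sound hW h0 h1 hq hq₁ hY hH hQ hε hρ
  rcases le_or_gt m 3 with h | h
  · exact key win5 win5_ok (show 3 ≤ m by omega) (show m ≤ 3 by omega)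
      (21 / 10) rfl (by rw [omS, if_pos (by omega : m ≤ 3)]; norm_num)
      (by rw [qS, if_pos (by omega : m ≤ 3)]; rfl)
  rcases le_or_gt m 4 with h | h
  · exact key win6 win6_ok (show 4 ≤ m by omega) (show m ≤ 4 by omega)
      (47 / 20) rfl (by rw [omS, if_neg (by omega : ¬ m ≤ 3), if_pos (by omega : m ≤ 4)]; norm_num)
      (by rw [qS, if_neg (by omega : ¬ m ≤ 3), if_pos (by omega : m ≤ 4)]; rfl)
  rcases le_or_gt m 5 with h | h
  · exact key win7 win7_ok (show 5 ≤ m by omega) (show m ≤ 5 by omega)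
      (5 / 2) rfl (by rw [omS, if_neg (by omega : ¬ m ≤ 3), if_neg (by omega : ¬ m ≤ 4), if_pos (by omega : m ≤ 5)]; norm_num)
      (by rw [qS, if_neg (by omega : ¬ m ≤ 3), if_neg (by omega : ¬ m ≤ 4), if_pos (by omega : m ≤ 5)]; rfl)
  rcases le_or_gt m 6 with h | h
  · exact key win8 win8_ok (show 6 ≤ m by omega) (show m ≤ 6 by omega)
      (14 / 5) rfl (by rw [omS, if_neg (by omega : ¬ m ≤ 3), if_neg (by omega : ¬ m ≤ 4), if_neg (by omega : ¬ m ≤ 5), if_pos (by omega : m ≤ 11)]; norm_num)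
      (by rw [qS, if_neg (by omega : ¬ m ≤ 3), if_neg (by omega : ¬ m ≤ 4), if_neg (by omega : ¬ m ≤ 5), if_pos (by omega : m ≤ 7)]; rfl)
  rcases le_or_gt m 7 with h | h
  · exact key win9 win9_ok (show 7 ≤ m by omega) (show m ≤ 7 by omega)
      (14 / 5) rfl (by rw [omS, if_neg (by omega : ¬ m ≤ 3), if_neg (by omega : ¬ m ≤ 4), if_neg (by omega : ¬ m ≤ 5), if_pos (by omega : m ≤ 11)]; norm_num)
      (by rw [qS, if_neg (by omega : ¬ m ≤ 3), if_neg (by omega : ¬ m ≤ 4), if_neg (by omega : ¬ m ≤ 5), if_pos (by omega : m ≤ 7)]; rfl)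
  rcases le_or_gt m 8 with h | h
  · exact key win10 win10_ok (show 8 ≤ m by omega) (show m ≤ 8 by omega)
      (14 / 5) rfl (by rw [omS, if_neg (by omega : ¬ m ≤ 3), if_neg (by omega : ¬ m ≤ 4), if_neg (by omega : ¬ m ≤ 5), if_pos (by omega : m ≤ 11)]; norm_num)
      (by rw [qS, if_neg (by omega : ¬ m ≤ 3), if_neg (by omega : ¬ m ≤ 4), if_neg (by omega : ¬ m ≤ 5), if_neg (by omega : ¬ m ≤ 7), if_pos (by omega : m ≤ 11)]; rfl)
  rcases le_or_gt m 9 with h | h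
  · exact key win11 win11_ok (show 9 ≤ m by omega) (show m ≤ 9 by omega)
      (14 / 5) rfl (by rw [omS, if_neg (by omega : ¬ m ≤ 3), if_neg (by omega : ¬ m ≤ 4), if_neg (by omega : ¬ m ≤ 5), if_pos (by omega : m ≤ 11)]; norm_num)
      (by rw [qS, if_neg (by omega : ¬ m ≤ 3), if_neg (by omega : ¬ m ≤ 4), if_neg (by omega : ¬ m ≤ 5), if_neg (by omega : ¬ m ≤ 7), if_pos (by omega : m ≤ 11)]; rfl)
  rcases le_or_gt m 11 with h | h
  · exact key win12 win12_ok (show 10 ≤ m by omega) (show m ≤ 11 by omega)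
      (14 / 5) rfl (by rw [omS, if_neg (by omega : ¬ m ≤ 3), if_neg (by omega : ¬ m ≤ 4), if_neg (by omega : ¬ m ≤ 5), if_pos (by omega : m ≤ 11)]; norm_num)
      (by rw [qS, if_neg (by omega : ¬ m ≤ 3), if_neg (by omega : ¬ m ≤ 4), if_neg (by omega : ¬ m ≤ 5), if_neg (by omega : ¬ m ≤ 7), if_pos (by omega : m ≤ 11)]; rfl)
  rcases le_or_gt m 12 with h | h
  · exact key win14 win14_ok (show 12 ≤ m by omega) (show m ≤ 12 by omega)
      (3) rfl (by rw [omS, if_neg (by omega : ¬ m ≤ 3), if_neg (by omega : ¬ m ≤ 4), if_neg (by omega : ¬ m ≤ 5), if_neg (by omega : ¬ m ≤ 11), if_pos (by omega : m ≤ 18)]; norm_num)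
      (by rw [qS, if_neg (by omega : ¬ m ≤ 3), if_neg (by omega : ¬ m ≤ 4), if_neg (by omega : ¬ m ≤ 5), if_neg (by omega : ¬ m ≤ 7), if_neg (by omega : ¬ m ≤ 11), if_pos (by omega : m ≤ 27)]; rfl)
  rcases le_or_gt m 14 with h | h
  · exact key win15 win15_ok (show 13 ≤ m by omega) (show m ≤ 14 by omega)
      (3) rfl (by rw [omS, if_neg (by omega : ¬ m ≤ 3), if_neg (by omega : ¬ m ≤ 4), if_neg (by omega : ¬ m ≤ 5), if_neg (by omega : ¬ m ≤ 11), if_pos (by omega : m ≤ 18)]; norm_num)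
      (by rw [qS, if_neg (by omega : ¬ m ≤ 3), if_neg (by omega : ¬ m ≤ 4), if_neg (by omega : ¬ m ≤ 5), if_neg (by omega : ¬ m ≤ 7), if_neg (by omega : ¬ m ≤ 11), if_pos (by omega : m ≤ 27)]; rfl)
  rcases le_or_gt m 16 with h | h
  · exact key win17 win17_ok (show 15 ≤ m by omega) (show m ≤ 16 by omega)
      (3) rfl (by rw [omS, if_neg (by omega : ¬ m ≤ 3), if_neg (by omega : ¬ m ≤ 4), if_neg (by omega : ¬ m ≤ 5), if_neg (by omega : ¬ m ≤ 11), if_pos (by omega : m ≤ 18)]; norm_num)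
      (by rw [qS, if_neg (by omega : ¬ m ≤ 3), if_neg (by omega : ¬ m ≤ 4), if_neg (by omega : ¬ m ≤ 5), if_neg (by omega : ¬ m ≤ 7), if_neg (by omega : ¬ m ≤ 11), if_pos (by omega : m ≤ 27)]; rfl)
  rcases le_or_gt m 18 with h | h
  · exact key win19 win19_ok (show 17 ≤ m by omega) (show m ≤ 18 by omega)
      (3) rfl (by rw [omS, if_neg (by omega : ¬ m ≤ 3), if_neg (by omega : ¬ m ≤ 4), if_neg (by omega : ¬ m ≤ 5), if_neg (by omega : ¬ m ≤ 11), if_pos (by omega : m ≤ 18)]; norm_num)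
      (by rw [qS, if_neg (by omega : ¬ m ≤ 3), if_neg (by omega : ¬ m ≤ 4), if_neg (by omega : ¬ m ≤ 5), if_neg (by omega : ¬ m ≤ 7), if_neg (by omega : ¬ m ≤ 11), if_pos (by omega : m ≤ 27)]; rfl)
  rcases le_or_gt m 20 with h | h
  · exact key win21 win21_ok (show 19 ≤ m by omega) (show m ≤ 20 by omega)
      (16 / 5) rfl (by rw [omS, if_neg (by omega : ¬ m ≤ 3), if_neg (by omega : ¬ m ≤ 4), if_neg (by omega : ¬ m ≤ 5), if_neg (by omega : ¬ m ≤ 11), if_neg (by omega : ¬ m ≤ 18), if_pos (by omega : m ≤ 27)]; norm_num)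
      (by rw [qS, if_neg (by omega : ¬ m ≤ 3), if_neg (by omega : ¬ m ≤ 4), if_neg (by omega : ¬ m ≤ 5), if_neg (by omega : ¬ m ≤ 7), if_neg (by omega : ¬ m ≤ 11), if_pos (by omega : m ≤ 27)]; rfl)
  rcases le_or_gt m 22 with h | h
  · exact key win23 win23_ok (show 21 ≤ m by omega) (show m ≤ 22 by omega)
      (16 / 5) rfl (by rw [omS, if_neg (by omega : ¬ m ≤ 3), if_neg (by omega : ¬ m ≤ 4), if_neg (by omega : ¬ m ≤ 5), if_neg (by omega : ¬ m ≤ 11), if_neg (by omega : ¬ m ≤ 18), if_pos (by omega : m ≤ 27)]; norm_num)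
      (by rw [qS, if_neg (by omega : ¬ m ≤ 3), if_neg (by omega : ¬ m ≤ 4), if_neg (by omega : ¬ m ≤ 5), if_neg (by omega : ¬ m ≤ 7), if_neg (by omega : ¬ m ≤ 11), if_pos (by omega : m ≤ 27)]; rfl)
  rcases le_or_gt m 25 with h | h
  · exact key win25 win25_ok (show 23 ≤ m by omega) (show m ≤ 25 by omega)
      (16 / 5) rfl (by rw [omS, if_neg (by omega : ¬ m ≤ 3), if_neg (by omega : ¬ m ≤ 4), if_neg (by omega : ¬ m ≤ 5), if_neg (by omega : ¬ m ≤ 11), if_neg (by omega : ¬ m ≤ 18), if_pos (by omega : m ≤ 27)]; norm_num)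
      (by rw [qS, if_neg (by omega : ¬ m ≤ 3), if_neg (by omega : ¬ m ≤ 4), if_neg (by omega : ¬ m ≤ 5), if_neg (by omega : ¬ m ≤ 7), if_neg (by omega : ¬ m ≤ 11), if_pos (by omega : m ≤ 27)]; rfl)
  rcases le_or_gt m 27 with h | h
  · exact key win28 win28_ok (show 26 ≤ m by omega) (show m ≤ 27 by omega)
      (16 / 5) rfl (by rw [omS, if_neg (by omega : ¬ m ≤ 3), if_neg (by omega : ¬ m ≤ 4), if_neg (by omega : ¬ m ≤ 5), if_neg (by omega : ¬ m ≤ 11), if_neg (by omega : ¬ m ≤ 18), if_pos (by omega : m ≤ 27)]; norm_num)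
      (by rw [qS, if_neg (by omega : ¬ m ≤ 3), if_neg (by omega : ¬ m ≤ 4), if_neg (by omega : ¬ m ≤ 5), if_neg (by omega : ¬ m ≤ 7), if_neg (by omega : ¬ m ≤ 11), if_pos (by omega : m ≤ 27)]; rfl)
  rcases le_or_gt m 29 with h | h
  · exact key win30 win30_ok (show 28 ≤ m by omega) (show m ≤ 29 by omega)
      (7 / 2) rfl (by rw [omS, if_neg (by omega : ¬ m ≤ 3), if_neg (by omega : ¬ m ≤ 4), if_neg (by omega : ¬ m ≤ 5), if_neg (by omega : ¬ m ≤ 11), if_neg (by omega : ¬ m ≤ 18), if_neg (by omega : ¬ m ≤ 27), if_pos (by omega : m ≤ 77)]; norm_num)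
      (by rw [qS, if_neg (by omega : ¬ m ≤ 3), if_neg (by omega : ¬ m ≤ 4), if_neg (by omega : ¬ m ≤ 5), if_neg (by omega : ¬ m ≤ 7), if_neg (by omega : ¬ m ≤ 11), if_neg (by omega : ¬ m ≤ 27), if_pos (by omega : m ≤ 125)]; rfl)
  rcases le_or_gt m 32 with h | h
  · exact key win32 win32_ok (show 30 ≤ m by omega) (show m ≤ 32 by omega)
      (7 / 2) rfl (by rw [omS, if_neg (by omega : ¬ m ≤ 3), if_neg (by omega : ¬ m ≤ 4), if_neg (by omega : ¬ m ≤ 5), if_neg (by omega : ¬ m ≤ 11), if_neg (by omega : ¬ m ≤ 18), if_neg (by omega : ¬ m ≤ 27), if_pos (by omega : m ≤ 77)]; norm_num)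
      (by rw [qS, if_neg (by omega : ¬ m ≤ 3), if_neg (by omega : ¬ m ≤ 4), if_neg (by omega : ¬ m ≤ 5), if_neg (by omega : ¬ m ≤ 7), if_neg (by omega : ¬ m ≤ 11), if_neg (by omega : ¬ m ≤ 27), if_pos (by omega : m ≤ 125)]; rfl)
  rcases le_or_gt m 36 with h | h
  · exact key win35 win35_ok (show 33 ≤ m by omega) (show m ≤ 36 by omega)
      (7 / 2) rfl (by rw [omS, if_neg (by omega : ¬ m ≤ 3), if_neg (by omega : ¬ m ≤ 4), if_neg (by omega : ¬ m ≤ 5), if_neg (by omega : ¬ m ≤ 11), if_neg (by omega : ¬ m ≤ 18), if_neg (by omega : ¬ m ≤ 27), if_pos (by omega : m ≤ 77)]; norm_num)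
      (by rw [qS, if_neg (by omega : ¬ m ≤ 3), if_neg (by omega : ¬ m ≤ 4), if_neg (by omega : ¬ m ≤ 5), if_neg (by omega : ¬ m ≤ 7), if_neg (by omega : ¬ m ≤ 11), if_neg (by omega : ¬ m ≤ 27), if_pos (by omega : m ≤ 125)]; rfl)
  rcases le_or_gt m 40 with h | h
  · exact key win39 win39_ok (show 37 ≤ m by omega) (show m ≤ 40 by omega)
      (7 / 2) rfl (by rw [omS, if_neg (by omega : ¬ m ≤ 3), if_neg (by omega : ¬ m ≤ 4), if_neg (by omega : ¬ m ≤ 5), if_neg (by omega : ¬ m ≤ 11), if_neg (by omega : ¬ m ≤ 18), if_neg (by omega : ¬ m ≤ 27), if_pos (by omega : m ≤ 77)]; norm_num)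
      (by rw [qS, if_neg (by omega : ¬ m ≤ 3), if_neg (by omega : ¬ m ≤ 4), if_neg (by omega : ¬ m ≤ 5), if_neg (by omega : ¬ m ≤ 7), if_neg (by omega : ¬ m ≤ 11), if_neg (by omega : ¬ m ≤ 27), if_pos (by omega : m ≤ 125)]; rfl)
  rcases le_or_gt m 45 with h | h
  · exact key win43 win43_ok (show 41 ≤ m by omega) (show m ≤ 45 by omega)
      (7 / 2) rfl (by rw [omS, if_neg (by omega : ¬ m ≤ 3), if_neg (by omega : ¬ m ≤ 4), if_neg (by omega : ¬ m ≤ 5), if_neg (by omega : ¬ m ≤ 11), if_neg (by omega : ¬ m ≤ 18), if_neg (by omega : ¬ m ≤ 27), if_pos (by omega : m ≤ 77)]; norm_num)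
      (by rw [qS, if_neg (by omega : ¬ m ≤ 3), if_neg (by omega : ¬ m ≤ 4), if_neg (by omega : ¬ m ≤ 5), if_neg (by omega : ¬ m ≤ 7), if_neg (by omega : ¬ m ≤ 11), if_neg (by omega : ¬ m ≤ 27), if_pos (by omega : m ≤ 125)]; rfl)
  rcases le_or_gt m 51 with h | h
  · exact key win48 win48_ok (show 46 ≤ m by omega) (show m ≤ 51 by omega)
      (7 / 2) rfl (by rw [omS, if_neg (by omega : ¬ m ≤ 3), if_neg (by omega : ¬ m ≤ 4), if_neg (by omega : ¬ m ≤ 5), if_neg (by omega : ¬ m ≤ 11), if_neg (by omega : ¬ m ≤ 18), if_neg (by omega : ¬ m ≤ 27), if_pos (by omega : m ≤ 77)]; norm_num)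
      (by rw [qS, if_neg (by omega : ¬ m ≤ 3), if_neg (by omega : ¬ m ≤ 4), if_neg (by omega : ¬ m ≤ 5), if_neg (by omega : ¬ m ≤ 7), if_neg (by omega : ¬ m ≤ 11), if_neg (by omega : ¬ m ≤ 27), if_pos (by omega : m ≤ 125)]; rfl)
  rcases le_or_gt m 58 with h | h
  · exact key win54 win54_ok (show 52 ≤ m by omega) (show m ≤ 58 by omega)
      (7 / 2) rfl (by rw [omS, if_neg (by omega : ¬ m ≤ 3), if_neg (by omega : ¬ m ≤ 4), if_neg (by omega : ¬ m ≤ 5), if_neg (by omega : ¬ m ≤ 11), if_neg (by omega : ¬ m ≤ 18), if_neg (by omega : ¬ m ≤ 27), if_pos (by omega : m ≤ 77)]; norm_num)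
      (by rw [qS, if_neg (by omega : ¬ m ≤ 3), if_neg (by omega : ¬ m ≤ 4), if_neg (by omega : ¬ m ≤ 5), if_neg (by omega : ¬ m ≤ 7), if_neg (by omega : ¬ m ≤ 11), if_neg (by omega : ¬ m ≤ 27), if_pos (by omega : m ≤ 125)]; rfl)
  rcases le_or_gt m 67 with h | h
  · exact key win61 win61_ok (show 59 ≤ m by omega) (show m ≤ 67 by omega)
      (7 / 2) rfl (by rw [omS, if_neg (by omega : ¬ m ≤ 3), if_neg (by omega : ¬ m ≤ 4), if_neg (by omega : ¬ m ≤ 5), if_neg (by omega : ¬ m ≤ 11), if_neg (by omega : ¬ m ≤ 18), if_neg (by omega : ¬ m ≤ 27), if_pos (by omega : m ≤ 77)]; norm_num)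
      (by rw [qS, if_neg (by omega : ¬ m ≤ 3), if_neg (by omega : ¬ m ≤ 4), if_neg (by omega : ¬ m ≤ 5), if_neg (by omega : ¬ m ≤ 7), if_neg (by omega : ¬ m ≤ 11), if_neg (by omega : ¬ m ≤ 27), if_pos (by omega : m ≤ 125)]; rfl)
  rcases le_or_gt m 77 with h | h
  · exact key win70 win70_ok (show 68 ≤ m by omega) (show m ≤ 77 by omega)
      (7 / 2) rfl (by rw [omS, if_neg (by omega : ¬ m ≤ 3), if_neg (by omega : ¬ m ≤ 4), if_neg (by omega : ¬ m ≤ 5), if_neg (by omega : ¬ m ≤ 11), if_neg (by omega : ¬ m ≤ 18), if_neg (by omega : ¬ m ≤ 27), if_pos (by omega : m ≤ 77)]; norm_num)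
      (by rw [qS, if_neg (by omega : ¬ m ≤ 3), if_neg (by omega : ¬ m ≤ 4), if_neg (by omega : ¬ m ≤ 5), if_neg (by omega : ¬ m ≤ 7), if_neg (by omega : ¬ m ≤ 11), if_neg (by omega : ¬ m ≤ 27), if_pos (by omega : m ≤ 125)]; rfl)
  rcases le_or_gt m 87 with h | h
  · exact key win80 win80_ok (show 78 ≤ m by omega) (show m ≤ 87 by omega)
      (15 / 4) rfl (by rw [omS, if_neg (by omega : ¬ m ≤ 3), if_neg (by omega : ¬ m ≤ 4), if_neg (by omega : ¬ m ≤ 5), if_neg (by omega : ¬ m ≤ 11), if_neg (by omega : ¬ m ≤ 18), if_neg (by omega : ¬ m ≤ 27), if_neg (by omega : ¬ m ≤ 77), if_pos (by omega : m ≤ 125)]; norm_num)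
      (by rw [qS, if_neg (by omega : ¬ m ≤ 3), if_neg (by omega : ¬ m ≤ 4), if_neg (by omega : ¬ m ≤ 5), if_neg (by omega : ¬ m ≤ 7), if_neg (by omega : ¬ m ≤ 11), if_neg (by omega : ¬ m ≤ 27), if_pos (by omega : m ≤ 125)]; rfl)
  rcases le_or_gt m 98 with h | h
  · exact key win90 win90_ok (show 88 ≤ m by omega) (show m ≤ 98 by omega)
      (15 / 4) rfl (by rw [omS, if_neg (by omega : ¬ m ≤ 3), if_neg (by omega : ¬ m ≤ 4), if_neg (by omega : ¬ m ≤ 5), if_neg (by omega : ¬ m ≤ 11), if_neg (by omega : ¬ m ≤ 18), if_neg (by omega : ¬ m ≤ 27), if_neg (by omega : ¬ m ≤ 77), if_pos (by omega : m ≤ 125)]; norm_num)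
      (by rw [qS, if_neg (by omega : ¬ m ≤ 3), if_neg (by omega : ¬ m ≤ 4), if_neg (by omega : ¬ m ≤ 5), if_neg (by omega : ¬ m ≤ 7), if_neg (by omega : ¬ m ≤ 11), if_neg (by omega : ¬ m ≤ 27), if_pos (by omega : m ≤ 125)]; rfl)
  rcases le_or_gt m 111 with h | h
  · exact key win101 win101_ok (show 99 ≤ m by omega) (show m ≤ 111 by omega)
      (15 / 4) rfl (by rw [omS, if_neg (by omega : ¬ m ≤ 3), if_neg (by omega : ¬ m ≤ 4), if_neg (by omega : ¬ m ≤ 5), if_neg (by omega : ¬ m ≤ 11), if_neg (by omega : ¬ m ≤ 18), if_neg (by omega : ¬ m ≤ 27), if_neg (by omega : ¬ m ≤ 77), if_pos (by omega : m ≤ 125)]; norm_num)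
      (by rw [qS, if_neg (by omega : ¬ m ≤ 3), if_neg (by omega : ¬ m ≤ 4), if_neg (by omega : ¬ m ≤ 5), if_neg (by omega : ¬ m ≤ 7), if_neg (by omega : ¬ m ≤ 11), if_neg (by omega : ¬ m ≤ 27), if_pos (by omega : m ≤ 125)]; rfl)
  rcases le_or_gt m 125 with h | h
  · exact key win114 win114_ok (show 112 ≤ m by omega) (show m ≤ 125 by omega)
      (15 / 4) rfl (by rw [omS, if_neg (by omega : ¬ m ≤ 3), if_neg (by omega : ¬ m ≤ 4), if_neg (by omega : ¬ m ≤ 5), if_neg (by omega : ¬ m ≤ 11), if_neg (by omega : ¬ m ≤ 18), if_neg (by omega : ¬ m ≤ 27), if_neg (by omega : ¬ m ≤ 77), if_pos (by omega : m ≤ 125)]; norm_num)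
      (by rw [qS, if_neg (by omega : ¬ m ≤ 3), if_neg (by omega : ¬ m ≤ 4), if_neg (by omega : ¬ m ≤ 5), if_neg (by omega : ¬ m ≤ 7), if_neg (by omega : ¬ m ≤ 11), if_neg (by omega : ¬ m ≤ 27), if_pos (by omega : m ≤ 125)]; rfl)
  rcases le_or_gt m 151 with h | h
  · exact key win128 win128_ok (show 126 ≤ m by omega) (show m ≤ 151 by omega)
      (7 / 2) rfl (by rw [omS, if_neg (by omega : ¬ m ≤ 3), if_neg (by omega : ¬ m ≤ 4), if_neg (by omega : ¬ m ≤ 5), if_neg (by omega : ¬ m ≤ 11), if_neg (by omega : ¬ m ≤ 18), if_neg (by omega : ¬ m ≤ 27), if_neg (by omega : ¬ m ≤ 77), if_neg (by omega : ¬ m ≤ 125), if_pos (by omega : m ≤ 182)]; norm_num)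
      (by rw [qS, if_neg (by omega : ¬ m ≤ 3), if_neg (by omega : ¬ m ≤ 4), if_neg (by omega : ¬ m ≤ 5), if_neg (by omega : ¬ m ≤ 7), if_neg (by omega : ¬ m ≤ 11), if_neg (by omega : ¬ m ≤ 27), if_neg (by omega : ¬ m ≤ 125)]; rfl)
  rcases le_or_gt m 182 with h | h
  · exact key win154 win154_ok (show 152 ≤ m by omega) (show m ≤ 182 by omega)
      (7 / 2) rfl (by rw [omS, if_neg (by omega : ¬ m ≤ 3), if_neg (by omega : ¬ m ≤ 4), if_neg (by omega : ¬ m ≤ 5), if_neg (by omega : ¬ m ≤ 11), if_neg (by omega : ¬ m ≤ 18), if_neg (by omega : ¬ m ≤ 27), if_neg (by omega : ¬ m ≤ 77), if_neg (by omega : ¬ m ≤ 125), if_pos (by omega : m ≤ 182)]; norm_num)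
      (by rw [qS, if_neg (by omega : ¬ m ≤ 3), if_neg (by omega : ¬ m ≤ 4), if_neg (by omega : ¬ m ≤ 5), if_neg (by omega : ¬ m ≤ 7), if_neg (by omega : ¬ m ≤ 11), if_neg (by omega : ¬ m ≤ 27), if_neg (by omega : ¬ m ≤ 125)]; rfl)
  rcases le_or_gt m 210 with h | h
  · exact key win185 win185_ok (show 183 ≤ m by omega) (show m ≤ 210 by omega)
      (4) rfl (by rw [omS, if_neg (by omega : ¬ m ≤ 3), if_neg (by omega : ¬ m ≤ 4), if_neg (by omega : ¬ m ≤ 5), if_neg (by omega : ¬ m ≤ 11), if_neg (by omega : ¬ m ≤ 18), if_neg (by omega : ¬ m ≤ 27), if_neg (by omega : ¬ m ≤ 77), if_neg (by omega : ¬ m ≤ 125), if_neg (by omega : ¬ m ≤ 182), if_pos (by omega : m ≤ 361)]; norm_num)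
      (by rw [qS, if_neg (by omega : ¬ m ≤ 3), if_neg (by omega : ¬ m ≤ 4), if_neg (by omega : ¬ m ≤ 5), if_neg (by omega : ¬ m ≤ 7), if_neg (by omega : ¬ m ≤ 11), if_neg (by omega : ¬ m ≤ 27), if_neg (by omega : ¬ m ≤ 125)]; rfl)
  rcases le_or_gt m 243 with h | h
  · exact key win213 win213_ok (show 211 ≤ m by omega) (show m ≤ 243 by omega)
      (4) rfl (by rw [omS, if_neg (by omega : ¬ m ≤ 3), if_neg (by omega : ¬ m ≤ 4), if_neg (by omega : ¬ m ≤ 5), if_neg (by omega : ¬ m ≤ 11), if_neg (by omega : ¬ m ≤ 18), if_neg (by omega : ¬ m ≤ 27), if_neg (by omega : ¬ m ≤ 77), if_neg (by omega : ¬ m ≤ 125), if_neg (by omega : ¬ m ≤ 182), if_pos (by omega : m ≤ 361)]; norm_num)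
      (by rw [qS, if_neg (by omega : ¬ m ≤ 3), if_neg (by omega : ¬ m ≤ 4), if_neg (by omega : ¬ m ≤ 5), if_neg (by omega : ¬ m ≤ 7), if_neg (by omega : ¬ m ≤ 11), if_neg (by omega : ¬ m ≤ 27), if_neg (by omega : ¬ m ≤ 125)]; rfl)
  rcases le_or_gt m 281 with h | h
  · exact key win246 win246_ok (show 244 ≤ m by omega) (show m ≤ 281 by omega)
      (4) rfl (by rw [omS, if_neg (by omega : ¬ m ≤ 3), if_neg (by omega : ¬ m ≤ 4), if_neg (by omega : ¬ m ≤ 5), if_neg (by omega : ¬ m ≤ 11), if_neg (by omega : ¬ m ≤ 18), if_neg (by omega : ¬ m ≤ 27), if_neg (by omega : ¬ m ≤ 77), if_neg (by omega : ¬ m ≤ 125), if_neg (by omega : ¬ m ≤ 182), if_pos (by omega : m ≤ 361)]; norm_num)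
      (by rw [qS, if_neg (by omega : ¬ m ≤ 3), if_neg (by omega : ¬ m ≤ 4), if_neg (by omega : ¬ m ≤ 5), if_neg (by omega : ¬ m ≤ 7), if_neg (by omega : ¬ m ≤ 11), if_neg (by omega : ¬ m ≤ 27), if_neg (by omega : ¬ m ≤ 125)]; rfl)
  rcases le_or_gt m 326 with h | h
  · exact key win284 win284_ok (show 282 ≤ m by omega) (show m ≤ 326 by omega)
      (4) rfl (by rw [omS, if_neg (by omega : ¬ m ≤ 3), if_neg (by omega : ¬ m ≤ 4), if_neg (by omega : ¬ m ≤ 5), if_neg (by omega : ¬ m ≤ 11), if_neg (by omega : ¬ m ≤ 18), if_neg (by omega : ¬ m ≤ 27), if_neg (by omega : ¬ m ≤ 77), if_neg (by omega : ¬ m ≤ 125), if_neg (by omega : ¬ m ≤ 182), if_pos (by omega : m ≤ 361)]; norm_num)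
      (by rw [qS, if_neg (by omega : ¬ m ≤ 3), if_neg (by omega : ¬ m ≤ 4), if_neg (by omega : ¬ m ≤ 5), if_neg (by omega : ¬ m ≤ 7), if_neg (by omega : ¬ m ≤ 11), if_neg (by omega : ¬ m ≤ 27), if_neg (by omega : ¬ m ≤ 125)]; rfl)
  rcases le_or_gt m 361 with h | h
  · exact key win329 win329_ok (show 327 ≤ m by omega) (show m ≤ 361 by omega)
      (4) rfl (by rw [omS, if_neg (by omega : ¬ m ≤ 3), if_neg (by omega : ¬ m ≤ 4), if_neg (by omega : ¬ m ≤ 5), if_neg (by omega : ¬ m ≤ 11), if_neg (by omega : ¬ m ≤ 18), if_neg (by omega : ¬ m ≤ 27), if_neg (by omega : ¬ m ≤ 77), if_neg (by omega : ¬ m ≤ 125), if_neg (by omega : ¬ m ≤ 182), if_pos (by omega : m ≤ 361)]; norm_num)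
      (by rw [qS, if_neg (by omega : ¬ m ≤ 3), if_neg (by omega : ¬ m ≤ 4), if_neg (by omega : ¬ m ≤ 5), if_neg (by omega : ¬ m ≤ 7), if_neg (by omega : ¬ m ≤ 11), if_neg (by omega : ¬ m ≤ 27), if_neg (by omega : ¬ m ≤ 125)]; rfl)
  exact key win364 win364_ok (show 362 ≤ m by omega) (show m ≤ 381 by omega)
      (9 / 2) rfl (by rw [omS, if_neg (by omega : ¬ m ≤ 3), if_neg (by omega : ¬ m ≤ 4), if_neg (by omega : ¬ m ≤ 5), if_neg (by omega : ¬ m ≤ 11), if_neg (by omega : ¬ m ≤ 18), if_neg (by omega : ¬ m ≤ 27), if_neg (by omega : ¬ m ≤ 77), if_neg (by omega : ¬ m ≤ 125), if_neg (by omega : ¬ m ≤ 182), if_neg (by omega : ¬ m ≤ 361)]; norm_num)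
      (by rw [qS, if_neg (by omega : ¬ m ≤ 3), if_neg (by omega : ¬ m ≤ 4), if_neg (by omega : ¬ m ≤ 5), if_neg (by omega : ¬ m ≤ 7), if_neg (by omega : ¬ m ≤ 11), if_neg (by omega : ¬ m ≤ 27), if_neg (by omega : ¬ m ≤ 125)]; rfl)

/-- The uniform window: `q ≤ 1 + 10⁻⁴`. -/
theorem smallJ {m : ℕ} (h3 : 3 ≤ m) (hm : m ≤ 381) {q Y ρ Q ε : ℝ} (hq : 1 < q)
    (hq₁ : q ≤ 1 + 1 / 10000) (hY : 1 ≤ Y) (hH : hullTan m Y ≤ q * semiMom m 1)
    (hQ : Q = q / Y ^ (m + 1)) (hε : ε = omS m * q ^ (2 / ((m : ℝ) + 2)) / Y ^ 2)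
    (hρ : omS m * ρ ^ 2 = ε * Y ^ 2) :
    ∃ (lam : ℝ) (Φ : ℝ × ℝ × ℝ → ℝ) (dΦ : ℝ × ℝ × ℝ → (ℝ × ℝ × ℝ →L[ℝ] ℝ)),
      IsCalY m (q * semiMom m 1) ρ (omS m) Y lam Φ dΦ := by
  refine smallJS h3 hm hq (le_trans (hq₁.trans ?_) ((Rat.cast_le (K := ℝ)).2 (le_qS m)))
    hY hH hQ hε hρ
  norm_num

end Vale.Agent.P237.Cal.Small
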